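import Vale.Agent.P060.TwoK2

namespace Vale.Agent.Results.P060.ChromaticCliqueMinor

open Vale.Agent.P060

/-- Hadwiger's conjecture for finite graphs with no induced `2K_2`, stated with Mathlib notions only.
(1) `χ(G) ≤ h(G)`: with `t = χ(G)` there are `t` pairwise disjoint vertex sets, each inducing a
connected subgraph, any two of them joined by an edge (a `K_t` minor).
(2) for every `t`: if `G` has no `K_{t+1}` minor then `G` is `t`-colourable. -/
theorem result {V : Type*} [Fintype V] (G : SimpleGraph V)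
    (hG : ∀ a b c d : V, G.Adj a b → G.Adj c d →
      G.Adj a c ∨ G.Adj a d ∨ G.Adj b c ∨ G.Adj b d) :
    (∃ t : ℕ, G.chromaticNumber = (t : ℕ∞) ∧ ∃ B : Fin t → Set V,
      (∀ i, (G.induce (B i)).Connected) ∧
      (∀ i j, i ≠ j → Disjoint (B i) (B j)) ∧
      (∀ i j, i ≠ j → ∃ x ∈ B i, ∃ y ∈ B j, G.Adj x y)) ∧
    (∀ t : ℕ, (¬ ∃ B : Fin (t + 1) → Set V,
      (∀ i, (G.induce (B i)).Connected) ∧
      (∀ i j, i ≠ j → Disjoint (B i) (B j)) ∧
      (∀ i j, i ≠ j → ∃ x ∈ B i, ∃ y ∈ B j, G.Adj x y)) → G.Colorable t) := by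
  refine ⟨?_, fun t ht => hadwiger_of_exists (twoK2_main hG) t ht⟩
  obtain ⟨t0, hc, hm⟩ := twoK2_main hG
  have hle : G.chromaticNumber ≤ (t0 : ℕ∞) := hc.chromaticNumber_le
  have hne : G.chromaticNumber ≠ ⊤ := ne_top_of_le_ne_top (ENat.coe_ne_top t0) hle
  have heq : ((G.chromaticNumber.toNat : ℕ) : ℕ∞) = G.chromaticNumber := ENat.coe_toNat hne
  have hle' : G.chromaticNumber.toNat ≤ t0 := by
    rw [← heq] at hle
    exact_mod_cast hle
  exact ⟨G.chromaticNumber.toNat, heq.symm, hm.mono hle'⟩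

end Vale.Agent.Results.P060.ChromaticCliqueMinor
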