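import Vale.Agent.P060.TwoK2

namespace Vale.Agent.Results.P060.TwoK2Free

open Vale.Agent.P060

/-- Hadwiger's conjecture holds for every finite graph with no induced `2K_2`
(any two edges `ab`, `cd` share a vertex or are joined by an edge):
if such a graph has no `K_{t+1}` minor then it is `t`-colourable. -/
theorem result {V : Type*} [Fintype V] (G : SimpleGraph V)
    (hG : ∀ a b c d : V, G.Adj a b → G.Adj c d →
      G.Adj a c ∨ G.Adj a d ∨ G.Adj b c ∨ G.Adj b d) :
    ∀ t : ℕ, ¬ HasCliqueMinor G (t + 1) → G.Colorable t :=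
  hadwiger_of_exists (twoK2_main hG)

end Vale.Agent.Results.P060.TwoK2Free
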